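import Mathlib
import Vale.Agent.P033.Final

namespace Vale.Agent.Results.P033.Main

open Matrix

/-- A real circulant Hadamard matrix of order `n ≥ 1` exists exactly when `n = 1` or `n = 4`. -/
theorem result (n : ℕ) (hn : 1 ≤ n) :
    (∃ (h : Fin n → ℝ) (H : Matrix (Fin n) (Fin n) ℝ), (∀ k, h k = 1 ∨ h k = -1) ∧
      (∀ i j, H i j = h (j - i)) ∧ H * Hᵀ = (n : ℝ) • (1 : Matrix (Fin n) (Fin n) ℝ)) ↔
    n = 1 ∨ n = 4 := by
  constructor
  · rintro ⟨h, H, h1, h2, h3⟩
    obtain ⟨m, rfl⟩ : ∃ m, n = m + 1 := ⟨n - 1, by omega⟩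
    have hg : ∀ k, ∃ z : ℤ, (z : ℝ) = h k ∧ Odd z := fun k => by
      rcases h1 k with e | e
      · exact ⟨1, by simp [e], odd_one⟩
      · exact ⟨-1, by simp [e], odd_neg_one⟩
    choose g hg hodd using hg
    refine Vale.Agent.P033.order_eq g hodd fun t => ?_
    have h4 := congrFun (congrFun h3 (-t)) 0
    simp only [mul_apply, transpose_apply, h2, sub_neg_eq_add, sub_zero, Matrix.smul_apply,
      Matrix.one_apply, neg_eq_zero, ← hg, smul_eq_mul, mul_ite, mul_one, mul_zero] at h4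
    split_ifs at h4 ⊢ <;> exact_mod_cast h4
  · rintro (rfl | rfl)
    · exact ⟨fun _ => 1, 1, fun _ => Or.inl rfl, fun i j => by
        rw [Subsingleton.elim i j, Matrix.one_apply_eq], by simp⟩
    · refine ⟨![1, 1, 1, -1], Matrix.of fun i j => ![1, 1, 1, -1] (j - i), fun k => ?_,
        fun _ _ => rfl, ?_⟩
      · fin_cases k <;> simp
      · ext i j
        fin_cases i <;> fin_cases j <;> simp [mul_apply, Fin.sum_univ_four] <;> norm_num

end Vale.Agent.Results.P033.Main
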